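import Vale.Agent.P113.Iface

/-!
# P113 part (6): the nine shears which realise one step of a two-stack machine
-/

open Set

namespace Vale.Agent.P113.H44

/-! ### evaluation of plateaus on `[0, 1/4]` -/

/-- what is used about plateaus -/
structure Good (P : Plateau) : Prop where
  ok : P.Ok
  left : P.hi + P.δ ≤ 1
  right : -(3 / 4) ≤ P.lo - P.δ

theorem fn_one (h : Part2a) {P : Plateau} (hP : Good P) {x : ℚ} (hp : P.lo ≤ x) (hq : x ≤ P.hi) :
    P.fn (x : ℝ) = (x : ℝ) ^ P.k :=
  (h.2 P hP.ok).2.2.1 x (by exact_mod_cast hp) (by exact_mod_cast hq)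

theorem fn_zero (h : Part2a) {P : Plateau} (hP : Good P) {x : ℚ} (h0 : 0 ≤ x)
    (h1 : x ≤ 1 / 4) (hx : x ≤ P.lo - P.δ ∨ P.hi + P.δ ≤ x) : P.fn (x : ℝ) = 0 := by
  have hl := hP.left
  have hr := hP.right
  rcases hx with hx | hx
  · refine (h.2 P hP.ok).2.2.2.2 x ?_ ?_
    · have : P.hi + P.δ - 1 ≤ x := by linarith
      exact_mod_cast this
    · exact_mod_cast hx
  · refine (h.2 P hP.ok).2.2.2.1 x ?_ ?_
    · exact_mod_cast hx
    · have : x ≤ 1 + P.lo - P.δ := by linarith
      exact_mod_cast this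

/-! ### the encoding -/

/-- the base `2 n` -/
def B (n : ℕ) : ℚ := 2 * n

/-- the number of a stack, `enc / 4` -/
def eQ (n : ℕ) : List ℕ → ℚ
  | [] => 0
  | e :: l => ((e : ℚ) / 2 + eQ n l) / B n

theorem eQ_eq_enc (n : ℕ) : ∀ l : List ℕ, ((eQ n l : ℚ) : ℝ) = enc n l / 4
  | [] => by simp [eQ, enc]
  | e :: l => by
    have h := eQ_eq_enc n l
    unfold eQ enc B
    push_cast
    rw [h]
    ring

/-- the symbols of the stack are `< n` -/
def Sm (n : ℕ) (l : List ℕ) : Prop := ∀ e ∈ l, e < n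

theorem Sm.tail {n : ℕ} {l : List ℕ} (h : Sm n l) : Sm n l.tail :=
  fun e he => h e (List.mem_of_mem_tail he)

theorem Sm.cons {n e : ℕ} {l : List ℕ} (he : e < n) (h : Sm n l) : Sm n (e :: l) := by
  intro a ha
  rcases List.mem_cons.1 ha with rfl | ha
  · exact he
  · exact h a ha

theorem Sm.head {n : ℕ} (hn : 0 < n) {l : List ℕ} (h : Sm n l) : l.headI < n := by
  cases l with
  | nil => simpa using hn
  | cons e l => exact h e (by simp)

section
variable {n : ℕ} (hn : 0 < n)
include hn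

theorem B_ge : (2 : ℚ) ≤ B n := by
  have : (1 : ℚ) ≤ n := by exact_mod_cast hn
  unfold B; linarith

theorem B_pos : (0 : ℚ) < B n := by
  have := B_ge hn; linarith

omit hn in
theorem num_le {e : ℕ} (he : e < n) : (e : ℚ) ≤ B n / 2 - 1 := by
  have : (e : ℚ) + 1 ≤ n := by exact_mod_cast he
  unfold B; linarith

theorem eQ_nonneg : ∀ l, 0 ≤ eQ n l
  | [] => le_rfl
  | e :: l => by
    have h1 := eQ_nonneg l
    have h3 := B_pos hn
    unfold eQ; positivity

theorem eQ_le : ∀ {l}, Sm n l → eQ n l ≤ 1 / 4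
  | [], _ => by unfold eQ; norm_num
  | e :: l, hl => by
    have h1 := eQ_le (l := l) hl.tail
    have h2 := num_le (hl e (by simp))
    have h3 := B_pos hn
    unfold eQ
    rw [div_le_iff₀ h3]; linarith

omit hn in
/-- the digit expansion, valid also for the empty stack -/
theorem eQ_eq (l : List ℕ) : eQ n l = ((l.headI : ℚ) / 2 + eQ n l.tail) / B n := by
  cases l with
  | nil => simp [eQ]
  | cons e l => rfl

theorem eQ_tail (l : List ℕ) : eQ n l.tail = B n * eQ n l - (l.headI : ℚ) / 2 := by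
  have h := eQ_eq (n := n) l
  have h3 := (B_pos hn).ne'
  rw [h]; field_simp; ring

end

/-! ### digit detectors -/

/-- detector of the top symbol `e` -/
def D1 (n e k : ℕ) : Plateau := ⟨k, (e / 2) / B n, (e / 2 + 1 / 4) / B n, 1 / 4 / B n⟩

/-- detector of the two top symbols `r`, `e` -/
def D2 (n r e k : ℕ) : Plateau :=
  ⟨k, (r / 2 + e / 2 / B n) / B n, (r / 2 + (e / 2 + 1 / 4) / B n) / B n, 1 / 4 / B n / B n⟩

/-- the linear function on `[0, 1/4]` -/
def lin : Plateau := ⟨1, 0, 1 / 4, 1 / 8⟩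

section
variable {n : ℕ} (hn : 0 < n)
include hn

theorem D1_good {e : ℕ} (he : e < n) (k : ℕ) : Good (D1 n e k) := by
  have h2 := num_le he
  have h3 := B_pos hn
  have h4 : (0 : ℚ) ≤ e := Nat.cast_nonneg _
  have h5 := B_ge hn
  refine ⟨⟨?_, ?_, ?_⟩, ?_, ?_⟩
  · show (0 : ℚ) < 1 / 4 / B n; positivity
  · show (e / 2 : ℚ) / B n ≤ (e / 2 + 1 / 4) / B n
    exact div_le_div_of_nonneg_right (by linarith) h3.le
  · show ((e / 2 + 1 / 4) / B n - (e / 2) / B n + 2 * (1 / 4 / B n) : ℚ) ≤ 1
    have : ((e / 2 + 1 / 4) / B n - (e / 2) / B n + 2 * (1 / 4 / B n) : ℚ) = (3 / 4) / B n := by ring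
    rw [this, div_le_iff₀ h3]; linarith
  · show ((e / 2 + 1 / 4) / B n + 1 / 4 / B n : ℚ) ≤ 1
    rw [← add_div, div_le_iff₀ h3]
    linarith
  · show (-(3 / 4) : ℚ) ≤ (e / 2) / B n - 1 / 4 / B n
    rw [← sub_div, le_div_iff₀ h3]; linarith

theorem D2_good {r e : ℕ} (hr : r < n) (he : e < n) (k : ℕ) : Good (D2 n r e k) := by
  have h3 := B_pos hn
  have h5 := B_ge hn
  have hr' := num_le hr
  have hr0 : (0 : ℚ) ≤ r := Nat.cast_nonneg _
  have he' := num_le he
  have he0 : (0 : ℚ) ≤ e := Nat.cast_nonneg _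
  have hd : (0 : ℚ) < 1 / 4 / B n := by positivity
  have hd1 : (1 / 4 / B n : ℚ) ≤ 1 / 8 := by
    rw [div_le_iff₀ h3]; linarith
  have hq : ((e / 2 + 1 / 4) / B n : ℚ) ≤ 1 / 4 := by
    rw [div_le_iff₀ h3]; linarith
  have hp : (0 : ℚ) ≤ e / 2 / B n := by positivity
  refine ⟨⟨?_, ?_, ?_⟩, ?_, ?_⟩
  · show (0 : ℚ) < 1 / 4 / B n / B n; positivity
  · show (r / 2 + e / 2 / B n : ℚ) / B n ≤ (r / 2 + (e / 2 + 1 / 4) / B n) / B n
    refine div_le_div_of_nonneg_right (add_le_add le_rfl ?_) h3.le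
    exact div_le_div_of_nonneg_right (by linarith) h3.le
  · show ((r / 2 + (e / 2 + 1 / 4) / B n) / B n - (r / 2 + e / 2 / B n) / B n
      + 2 * (1 / 4 / B n / B n) : ℚ) ≤ 1
    have : ((r / 2 + (e / 2 + 1 / 4) / B n) / B n - (r / 2 + e / 2 / B n) / B n
      + 2 * (1 / 4 / B n / B n) : ℚ) = (3 * (1 / 4 / B n)) / B n := by ring
    rw [this, div_le_iff₀ h3]; linarith
  · show ((r / 2 + (e / 2 + 1 / 4) / B n) / B n + 1 / 4 / B n / B n : ℚ) ≤ 1
    rw [← add_div, div_le_iff₀ h3]
    linarith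
  · show (-(3 / 4) : ℚ) ≤ (r / 2 + e / 2 / B n) / B n - 1 / 4 / B n / B n
    rw [← sub_div, le_div_iff₀ h3]; linarith

omit hn in
theorem lin_good : Good lin := by
  refine ⟨⟨?_, ?_, ?_⟩, ?_, ?_⟩ <;> norm_num [lin]

omit hn in
theorem fn_lin (h : Part2a) {x : ℚ} (h0 : 0 ≤ x) (h1 : x ≤ 1 / 4) : lin.fn (x : ℝ) = x := by
  have := fn_one h lin_good h0 h1
  simpa [lin] using this

omit hn in
/-- digit comparison for the top symbol -/
theorem num_cases {e e' : ℕ} (h : e ≠ e') : (e : ℚ) ≤ e' - 1 ∨ (e' : ℚ) + 1 ≤ e := by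
  rcases lt_trichotomy e e' with h1 | h1 | h1
  · left
    have : (e : ℚ) + 1 ≤ e' := by exact_mod_cast h1
    linarith
  · exact absurd h1 h
  · right; exact_mod_cast h1

theorem D1_pos {l : List ℕ} (hl : Sm n l) (k : ℕ) :
    (D1 n l.headI k).lo ≤ eQ n l ∧ eQ n l ≤ (D1 n l.headI k).hi := by
  have h3 := B_pos hn
  have h0 := eQ_nonneg hn l.tail
  have h1 := eQ_le hn hl.tail
  rw [eQ_eq l]
  constructor
  · show (l.headI / 2 : ℚ) / B n ≤ _
    exact div_le_div_of_nonneg_right (by linarith) h3.le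
  · show _ ≤ ((l.headI / 2 + 1 / 4 : ℚ)) / B n
    exact div_le_div_of_nonneg_right (by linarith) h3.le

theorem D1_neg {l : List ℕ} (hl : Sm n l) {e : ℕ} (h : l.headI ≠ e) (k : ℕ) :
    eQ n l ≤ (D1 n e k).lo - (D1 n e k).δ ∨ (D1 n e k).hi + (D1 n e k).δ ≤ eQ n l := by
  have h3 := B_pos hn
  have h0 := eQ_nonneg hn l.tail
  have h1 := eQ_le hn hl.tail
  rw [eQ_eq l]
  rcases num_cases h with h2 | h2
  · left
    show _ ≤ (e / 2 : ℚ) / B n - 1 / 4 / B n
    rw [← sub_div]; exact div_le_div_of_nonneg_right (by linarith) h3.le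
  · right
    show ((e / 2 + 1 / 4 : ℚ)) / B n + 1 / 4 / B n ≤ _
    rw [← add_div]; exact div_le_div_of_nonneg_right (by linarith) h3.le

theorem fn_D1 (h : Part2a) {l : List ℕ} (hl : Sm n l) {e : ℕ} (he : e < n) (k : ℕ) :
    (D1 n e k).fn (eQ n l : ℝ) = if e = l.headI then (eQ n l : ℝ) ^ k else 0 := by
  have h0 := eQ_nonneg hn l
  have h1 := eQ_le hn hl
  split_ifs with he'
  · subst he'
    exact fn_one h (D1_good hn he k) (D1_pos hn hl k).1 (D1_pos hn hl k).2
  · exact fn_zero h (D1_good hn he k) h0 h1 (D1_neg hn hl (Ne.symm he') k)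

theorem D2_pos (r : ℕ) {l : List ℕ} (hl : Sm n l) (k : ℕ) :
    (D2 n r l.headI k).lo ≤ eQ n (r :: l) ∧ eQ n (r :: l) ≤ (D2 n r l.headI k).hi := by
  have h3 := B_pos hn
  have h := D1_pos hn hl k
  have e1 : eQ n (r :: l) = ((r : ℚ) / 2 + eQ n l) / B n := rfl
  rw [e1]
  constructor
  · show (r / 2 + l.headI / 2 / B n : ℚ) / B n ≤ _
    refine div_le_div_of_nonneg_right (add_le_add le_rfl ?_) h3.le
    exact h.1
  · show _ ≤ (r / 2 + (l.headI / 2 + 1 / 4) / B n : ℚ) / B n
    refine div_le_div_of_nonneg_right (add_le_add le_rfl ?_) h3.le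
    exact h.2

theorem D2_neg {r : ℕ} {l : List ℕ} (hl : Sm n l) {r' e' : ℕ} (he' : e' < n)
    (hh : r ≠ r' ∨ l.headI ≠ e') (k : ℕ) : eQ n (r :: l) ≤ (D2 n r' e' k).lo - (D2 n r' e' k).δ ∨
      (D2 n r' e' k).hi + (D2 n r' e' k).δ ≤ eQ n (r :: l) := by
  have h3 := B_pos hn
  have h5 := B_ge hn
  have h0 := eQ_nonneg hn l
  have h1 := eQ_le hn hl
  have e1 : eQ n (r :: l) = ((r : ℚ) / 2 + eQ n l) / B n := rfl
  have ep : (D2 n r' e' k).lo - (D2 n r' e' k).δ
      = (r' / 2 + (e' / 2 - 1 / 4) / B n) / B n := by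
    show (r' / 2 + e' / 2 / B n : ℚ) / B n - 1 / 4 / B n / B n = _
    ring
  have eq : (D2 n r' e' k).hi + (D2 n r' e' k).δ
      = (r' / 2 + (e' / 2 + 1 / 2) / B n) / B n := by
    show (r' / 2 + (e' / 2 + 1 / 4) / B n : ℚ) / B n + 1 / 4 / B n / B n = _
    ring
  rw [e1, ep, eq]
  have he := num_le he'
  have he0 : (0 : ℚ) ≤ e' := Nat.cast_nonneg _
  by_cases hr : r = r'
  · subst hr
    have hl' : l.headI ≠ e' := by
      rcases hh with hh | hh
      · exact absurd rfl hh
      · exact hh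
    rcases D1_neg hn hl hl' 0 with h | h
    · left
      have h' : eQ n l ≤ (e' / 2 - 1 / 4) / B n := by
        have : ((e' : ℚ) / 2 - 1 / 4) / B n = (D1 n e' 0).lo - (D1 n e' 0).δ := by
          show _ = (e' / 2 : ℚ) / B n - 1 / 4 / B n
          ring
        rw [this]; exact h
      exact div_le_div_of_nonneg_right (add_le_add le_rfl h') h3.le
    · right
      have h' : (e' / 2 + 1 / 2) / B n ≤ eQ n l := by
        have : ((e' : ℚ) / 2 + 1 / 2) / B n = (D1 n e' 0).hi + (D1 n e' 0).δ := by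
          show _ = (e' / 2 + 1 / 4 : ℚ) / B n + 1 / 4 / B n
          ring
        rw [this]; exact h
      exact div_le_div_of_nonneg_right (add_le_add le_rfl h') h3.le
  · have ha : (-1 / 8 : ℚ) ≤ (e' / 2 - 1 / 4) / B n := by
      rw [le_div_iff₀ h3]; linarith
    have hb : ((e' / 2 + 1 / 2) / B n : ℚ) ≤ 1 / 2 := by
      rw [div_le_iff₀ h3]; linarith
    rcases num_cases hr with h2 | h2
    · left; exact div_le_div_of_nonneg_right (by linarith) h3.le
    · right; exact div_le_div_of_nonneg_right (by linarith) h3.le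

theorem fn_D2 (h : Part2a) {r : ℕ} {l : List ℕ} (hr : r < n) (hl : Sm n l) {r' e' : ℕ}
    (hr' : r' < n) (he' : e' < n) (k : ℕ) :
    (D2 n r' e' k).fn (eQ n (r :: l) : ℝ)
      = if r' = r ∧ e' = l.headI then (eQ n (r :: l) : ℝ) ^ k else 0 := by
  have hrl : Sm n (r :: l) := hl.cons hr
  have h0 := eQ_nonneg hn (r :: l)
  have h1 := eQ_le hn hrl
  split_ifs with hc
  · obtain ⟨rfl, rfl⟩ := hc
    exact fn_one h (D2_good hn hr' he' k) (D2_pos hn _ hl k).1 (D2_pos hn _ hl k).2
  · refine fn_zero h (D2_good hn hr' he' k) h0 h1 (D2_neg hn hl he' ?_ k)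
    by_contra hcon
    push Not at hcon
    exact hc ⟨hcon.1.symm, hcon.2.symm⟩

end

/-! ### the nine shears -/

/-- terms of the first shear, `z += y'` (or `1/2` in a halting case) -/
def t1 (T : TSM) (e y : ℕ) : List Atom :=
  match T.δ e y with
  | none => [⟨1 / 2, ![some (D1 T.n e 0), some (D1 T.n y 0), none]⟩]
  | some j =>
    match T.kind j with
    | .push => [⟨1 / B T.n / B T.n, ![some (D1 T.n e 0), some (D1 T.n y 1), none]⟩,
        ⟨(j / 2 + e / 2 / B T.n) / B T.n, ![some (D1 T.n e 0), some (D1 T.n y 0), none]⟩]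
    | .turn => [⟨1 / B T.n, ![some (D1 T.n e 1), some (D1 T.n y 0), none]⟩,
        ⟨j / 2 / B T.n, ![some (D1 T.n e 0), some (D1 T.n y 0), none]⟩]
    | .write _ _ => [⟨1 / B T.n, ![some (D1 T.n e 0), some (D1 T.n y 1), none]⟩,
        ⟨j / 2 / B T.n, ![some (D1 T.n e 0), some (D1 T.n y 0), none]⟩]

/-- terms of the second shear, `x -= x` read off `z`, in the turn cases -/
def t2 (T : TSM) (j : ℕ) : List Atom :=
  match T.kind j with
  | .turn => [⟨-B T.n, ![none, none, some (D1 T.n j 1)]⟩,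
      ⟨j / 2, ![none, none, some (D1 T.n j 0)]⟩]
  | _ => []

/-- terms of the third shear, `y -= y` read off `z`, in the other cases -/
def t3 (T : TSM) (j : ℕ) : List Atom :=
  match T.kind j with
  | .push => (List.range T.n).flatMap fun e =>
      [⟨-(B T.n * B T.n), ![none, none, some (D2 T.n j e 1)]⟩,
        ⟨B T.n * (j / 2) + e / 2, ![none, none, some (D2 T.n j e 0)]⟩]
  | .write _ _ => [⟨-B T.n, ![none, none, some (D1 T.n j 1)]⟩,
      ⟨j / 2, ![none, none, some (D1 T.n j 0)]⟩]
  | .turn => []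

/-- terms of the fourth shear, `y += x'` -/
def t4 (T : TSM) (j : ℕ) : List Atom :=
  match T.kind j with
  | .push => (List.range T.n).flatMap fun e =>
      [⟨B T.n, ![some lin, none, some (D2 T.n j e 0)]⟩,
        ⟨-(e / 2), ![none, none, some (D2 T.n j e 0)]⟩]
  | .write e b => [⟨1, ![some lin, none, some (D1 T.n j 0)]⟩,
      ⟨(b - e) / 2 / B T.n, ![none, none, some (D1 T.n j 0)]⟩]
  | .turn => []

/-- terms of the fifth shear, `x -= x` read off `y = x'` -/
def t5 (T : TSM) (j : ℕ) : List Atom :=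
  match T.kind j with
  | .push => (List.range T.n).flatMap fun e =>
      [⟨-(1 / B T.n), ![none, some lin, some (D2 T.n j e 0)]⟩,
        ⟨-(e / 2 / B T.n), ![none, none, some (D2 T.n j e 0)]⟩]
  | .write e b => [⟨-1, ![none, some lin, some (D1 T.n j 0)]⟩,
      ⟨(b - e) / 2 / B T.n, ![none, none, some (D1 T.n j 0)]⟩]
  | .turn => []

/-- a shear given by its terms for each record symbol -/
def shOf (T : TSM) (l : Fin 3) (t : ℕ → List Atom) : Shear := ⟨l, (List.range T.n).flatMap t⟩

/-- the first shear -/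
def sh1 (T : TSM) : Shear :=
  ⟨2, (List.range T.n).flatMap fun e => (List.range T.n).flatMap fun y => t1 T e y⟩

/-- the nine shears -/
def shears (T : TSM) : List Shear :=
  [sh1 T, shOf T 0 (t2 T), shOf T 1 (t3 T), shOf T 1 (t4 T), shOf T 0 (t5 T),
    ⟨0, [⟨1, ![none, some lin, none]⟩]⟩, ⟨1, [⟨-1, ![some lin, none, none]⟩]⟩,
    ⟨1, [⟨1, ![none, none, some lin]⟩]⟩, ⟨2, [⟨-1, ![none, some lin, none]⟩]⟩]

theorem shears_ok (T : TSM) : ∀ s ∈ shears T, s.Ok := by
  have hn := T.n_pos
  have d1 : ∀ e k : ℕ, e < T.n → (D1 T.n e k).Ok := fun e k he => (D1_good hn he k).ok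
  have d2 : ∀ r e k : ℕ, r < T.n → e < T.n → (D2 T.n r e k).Ok :=
    fun r e k hr he => (D2_good hn hr he k).ok
  have dl : lin.Ok := lin_good.ok
  intro s hs
  simp only [shears, List.mem_cons, List.not_mem_nil, or_false] at hs
  rcases hs with rfl | rfl | rfl | rfl | rfl | rfl | rfl | rfl | rfl
  · intro t ht
    simp only [sh1, List.mem_flatMap, List.mem_range] at ht
    obtain ⟨e, he, y, hy, hc⟩ := ht
    unfold t1 at hc
    split at hc
    · simp only [List.mem_cons, List.not_mem_nil, or_false] at hc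
      subst hc
      refine ⟨rfl, fun i f hf => ?_⟩
      fin_cases i <;> simp at hf <;> subst hf <;> exact d1 _ _ (by assumption)
    · split at hc <;> simp only [List.mem_cons, List.not_mem_nil, or_false] at hc <;>
      rcases hc with rfl | rfl <;>
      refine ⟨rfl, fun i f hf => ?_⟩ <;> fin_cases i <;> simp at hf <;> subst hf <;>
      exact d1 _ _ (by assumption)
  · intro t ht
    simp only [shOf, List.mem_flatMap, List.mem_range] at ht
    obtain ⟨c, hc', hc⟩ := ht
    unfold t2 at hc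
    split at hc <;> simp only [List.mem_cons, List.not_mem_nil, or_false] at hc <;>
      rcases hc with rfl | rfl <;>
      refine ⟨rfl, fun i f hf => ?_⟩ <;> fin_cases i <;> simp at hf <;> subst hf <;>
      exact d1 _ _ (by assumption)
  · intro t ht
    simp only [shOf, List.mem_flatMap, List.mem_range] at ht
    obtain ⟨c, hc', hc⟩ := ht
    unfold t3 at hc
    split at hc
    · simp only [List.mem_flatMap, List.mem_range, List.mem_cons, List.not_mem_nil, or_false] at hc
      obtain ⟨e, he, hc⟩ := hc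
      rcases hc with rfl | rfl <;>
        refine ⟨rfl, fun i f hf => ?_⟩ <;> fin_cases i <;> simp at hf <;> subst hf <;>
        exact d2 _ _ _ (by assumption) (by assumption)
    · simp only [List.mem_cons, List.not_mem_nil, or_false] at hc
      rcases hc with rfl | rfl <;>
        refine ⟨rfl, fun i f hf => ?_⟩ <;> fin_cases i <;> simp at hf <;> subst hf <;>
        exact d1 _ _ (by assumption)
    · simp at hc
  · intro t ht
    simp only [shOf, List.mem_flatMap, List.mem_range] at ht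
    obtain ⟨c, hc', hc⟩ := ht
    unfold t4 at hc
    split at hc
    · simp only [List.mem_flatMap, List.mem_range, List.mem_cons, List.not_mem_nil, or_false] at hc
      obtain ⟨e, he, hc⟩ := hc
      rcases hc with rfl | rfl <;>
        refine ⟨rfl, fun i f hf => ?_⟩ <;> fin_cases i <;> simp at hf <;> subst hf <;>
        first | exact d2 _ _ _ (by assumption) (by assumption) | exact dl
    · simp only [List.mem_cons, List.not_mem_nil, or_false] at hc
      rcases hc with rfl | rfl <;>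
        refine ⟨rfl, fun i f hf => ?_⟩ <;> fin_cases i <;> simp at hf <;> subst hf <;>
        first | exact d1 _ _ (by assumption) | exact dl
    · simp at hc
  · intro t ht
    simp only [shOf, List.mem_flatMap, List.mem_range] at ht
    obtain ⟨c, hc', hc⟩ := ht
    unfold t5 at hc
    split at hc
    · simp only [List.mem_flatMap, List.mem_range, List.mem_cons, List.not_mem_nil, or_false] at hc
      obtain ⟨e, he, hc⟩ := hc
      rcases hc with rfl | rfl <;>
        refine ⟨rfl, fun i f hf => ?_⟩ <;> fin_cases i <;> simp at hf <;> subst hf <;>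
        first | exact d2 _ _ _ (by assumption) (by assumption) | exact dl
    · simp only [List.mem_cons, List.not_mem_nil, or_false] at hc
      rcases hc with rfl | rfl <;>
        refine ⟨rfl, fun i f hf => ?_⟩ <;> fin_cases i <;> simp at hf <;> subst hf <;>
        first | exact d1 _ _ (by assumption) | exact dl
    · simp at hc
  all_goals
    intro t ht
    simp only [List.mem_cons, List.not_mem_nil, or_false] at ht
    subst ht
    refine ⟨rfl, fun i f hf => ?_⟩
    fin_cases i <;> simp at hf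
    subst hf
    exact dl

/-! ### evaluation of the shears -/

/-- the point with rational coordinates `a b c` -/
noncomputable def vec (a b c : ℚ) : Fin 3 → ℝ := ![(a : ℝ), (b : ℝ), (c : ℝ)]

theorem upd0 (a b c : ℚ) (d : ℝ) (e : ℚ) (h : (a : ℝ) + d = e) :
    Function.update (vec a b c) 0 ((vec a b c) 0 + d) = vec e b c := by
  ext i; fin_cases i <;> simp [vec, h]

theorem upd1 (a b c : ℚ) (d : ℝ) (e : ℚ) (h : (b : ℝ) + d = e) :
    Function.update (vec a b c) 1 ((vec a b c) 1 + d) = vec a e c := by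
  ext i; fin_cases i <;> simp [vec, h]

theorem upd2 (a b c : ℚ) (d : ℝ) (e : ℚ) (h : (c : ℝ) + d = e) :
    Function.update (vec a b c) 2 ((vec a b c) 2 + d) = vec a b e := by
  ext i; fin_cases i <;> simp [vec, h]

theorem sum_flatMap_range (n : ℕ) (f : ℕ → List Atom) (φ : Atom → ℝ) :
    (((List.range n).flatMap f).map φ).sum = ∑ j ∈ Finset.range n, ((f j).map φ).sum := by
  induction n with
  | zero => simp
  | succ n ih => rw [List.range_succ, List.flatMap_append, List.map_append, List.sum_append, ih,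
      Finset.sum_range_succ]; simp

theorem eval_vec (q : ℚ) (a b c : Option Plateau) (x y z : ℚ) :
    Atom.eval ⟨q, ![a, b, c]⟩ (vec x y z) = q * (optFn a x * optFn b y * optFn c z) := by
  simp [Atom.eval, vec, Fin.prod_univ_three]

section
variable (h : Part2a) (T : TSM) {X Y : List ℕ} (hX : Sm T.n X) (hY : Sm T.n Y)
include h hX hY

theorem t1_zero {e y : ℕ} (he : e < T.n) (hy : y < T.n) (c : ℚ)
    (hne : ¬ (e = X.headI ∧ y = Y.headI)) :
    ((t1 T e y).map fun A => A.eval (vec (eQ T.n X) (eQ T.n Y) c)).sum = 0 := by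
  have h1 : ∀ k, (D1 T.n e k).fn (eQ T.n X : ℝ) = if e = X.headI then (eQ T.n X : ℝ) ^ k else 0 :=
    fun k => fn_D1 T.n_pos h hX he k
  have h2 : ∀ k, (D1 T.n y k).fn (eQ T.n Y : ℝ) = if y = Y.headI then (eQ T.n Y : ℝ) ^ k else 0 :=
    fun k => fn_D1 T.n_pos h hY hy k
  unfold t1
  by_cases he' : e = X.headI
  · have hy' : ¬ y = Y.headI := fun hy' => hne ⟨he', hy'⟩
    split
    · simp [eval_vec, optFn, h1, h2, hy']
    · split <;> simp [eval_vec, optFn, h1, h2, hy']
  · split
    · simp [eval_vec, optFn, h1, h2, he']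
    · split <;> simp [eval_vec, optFn, h1, h2, he']

theorem g1_eq (c : ℚ) : (sh1 T).g (vec (eQ T.n X) (eQ T.n Y) c)
    = ((t1 T X.headI Y.headI).map fun A => A.eval (vec (eQ T.n X) (eQ T.n Y) c)).sum := by
  have hx := hX.head T.n_pos
  have hy := hY.head T.n_pos
  unfold Shear.g sh1
  rw [sum_flatMap_range, Finset.sum_eq_single X.headI, sum_flatMap_range,
    Finset.sum_eq_single Y.headI]
  · intro y hy' hne
    exact t1_zero h T hX hY hx (Finset.mem_range.1 hy') c fun hc => hne hc.2
  · intro hc; exact absurd (Finset.mem_range.2 hy) hc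
  · intro e he hne
    rw [sum_flatMap_range]
    refine Finset.sum_eq_zero fun y hy' => ?_
    exact t1_zero h T hX hY (Finset.mem_range.1 he) (Finset.mem_range.1 hy') c fun hc => hne hc.1
  · intro hc; exact absurd (Finset.mem_range.2 hx) hc

theorem g1_none (c : ℚ) (hδ : T.δ X.headI Y.headI = none) :
    (sh1 T).g (vec (eQ T.n X) (eQ T.n Y) c) = ((1 / 2 : ℚ) : ℝ) := by
  have h1 := fn_D1 T.n_pos h hX (hX.head T.n_pos) 0
  have h2 := fn_D1 T.n_pos h hY (hY.head T.n_pos) 0
  rw [g1_eq h T hX hY]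
  unfold t1
  simp [hδ, eval_vec, optFn, h1, h2]

theorem g1_some (c : ℚ) {j : ℕ} (hδ : T.δ X.headI Y.headI = some j) {X' Y' : List ℕ}
    (hs : T.step (X, Y) = some (X', Y')) :
    (sh1 T).g (vec (eQ T.n X) (eQ T.n Y) c) = ((eQ T.n Y' : ℚ) : ℝ) := by
  have h1 := fn_D1 T.n_pos h hX (hX.head T.n_pos)
  have h2 := fn_D1 T.n_pos h hY (hY.head T.n_pos)
  simp only [if_true] at h1 h2
  rw [g1_eq h T hX hY]
  unfold t1
  unfold TSM.step at hs
  simp only [hδ] at hs ⊢
  have hB := (B_pos T.n_pos).ne'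
  cases hk : T.kind j with
  | push =>
    simp only [hk, Option.some.injEq, Prod.mk.injEq] at hs
    obtain ⟨-, rfl⟩ := hs
    simp only [List.map_cons, List.map_nil, List.sum_cons, List.sum_nil, eval_vec, optFn, h1, h2,
      pow_zero, pow_one, one_mul, mul_one, add_zero, eQ]
    push_cast; ring
  | turn =>
    simp only [hk, Option.some.injEq, Prod.mk.injEq] at hs
    obtain ⟨-, rfl⟩ := hs
    simp only [List.map_cons, List.map_nil, List.sum_cons, List.sum_nil, eval_vec, optFn, h1, h2,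
      pow_zero, pow_one, one_mul, mul_one, add_zero, eQ]
    push_cast; ring
  | write e b =>
    simp only [hk, Option.some.injEq, Prod.mk.injEq] at hs
    obtain ⟨-, rfl⟩ := hs
    simp only [List.map_cons, List.map_nil, List.sum_cons, List.sum_nil, eval_vec, optFn, h1, h2,
      pow_zero, pow_one, one_mul, mul_one, add_zero, eQ]
    push_cast; ring

end

theorem cast_cons (n j : ℕ) (l : List ℕ) :
    ((eQ n (j :: l) : ℚ) : ℝ) = ((j : ℝ) / 2 + (eQ n l : ℝ)) / (B n : ℝ) := by
  rw [eQ]; push_cast; rfl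

section
variable (h : Part2a) (T : TSM) {l : List ℕ} (hl : Sm T.n l) {j : ℕ} (hj : j < T.n)
include h hl hj

omit h hl in
/-- a shear whose terms read the record symbol off `z` -/
theorem shOf_g (i : Fin 3) (t : ℕ → List Atom) (x y : ℚ)
    (ht : ∀ j', j' < T.n → j' ≠ j →
      ((t j').map fun A => A.eval (vec x y (eQ T.n (j :: l)))).sum = 0) :
    (shOf T i t).g (vec x y (eQ T.n (j :: l)))
      = ((t j).map fun A => A.eval (vec x y (eQ T.n (j :: l)))).sum := by
  unfold Shear.g shOf
  rw [sum_flatMap_range, Finset.sum_eq_single j]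
  · intro j' hj' hne
    exact ht j' (Finset.mem_range.1 hj') hne
  · intro hc; exact absurd (Finset.mem_range.2 hj) hc

theorem fn_z1 {j' : ℕ} (hj' : j' < T.n) (k : ℕ) :
    (D1 T.n j' k).fn (eQ T.n (j :: l) : ℝ) = if j' = j then (eQ T.n (j :: l) : ℝ) ^ k else 0 := by
  exact fn_D1 T.n_pos h (hl.cons hj) hj' k

theorem fn_z2 {j' e' : ℕ} (hj' : j' < T.n) (he' : e' < T.n) (k : ℕ) :
    (D2 T.n j' e' k).fn (eQ T.n (j :: l) : ℝ)
      = if j' = j ∧ e' = l.headI then (eQ T.n (j :: l) : ℝ) ^ k else 0 :=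
  fn_D2 T.n_pos h hj hl hj' he' k

/-- value of the second shear -/
theorem g2_eq (x y : ℚ) : (shOf T 0 (t2 T)).g (vec x y (eQ T.n (j :: l)))
    = match T.kind j with
      | .turn => ((-eQ T.n l : ℚ) : ℝ)
      | _ => 0 := by
  have hB : (B T.n : ℝ) ≠ 0 := by exact_mod_cast (B_pos T.n_pos).ne'
  rw [shOf_g T hj]
  · unfold t2
    have h1 := fn_z1 h T hl hj hj
    simp only [if_true] at h1
    cases hk : T.kind j with
    | push => simp
    | turn =>
      simp only [List.map_cons, List.map_nil, List.sum_cons, List.sum_nil, eval_vec, optFn, h1,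
        pow_zero, pow_one, one_mul, mul_one, add_zero]
      rw [cast_cons]
      push_cast; field_simp; ring
    | write e b => simp
  · intro j' hj' hne
    have h1 := fn_z1 h T hl hj hj'
    simp only [hne, if_false] at h1
    unfold t2
    cases hk : T.kind j' <;> simp [eval_vec, optFn, h1]

theorem sum_D2 {j' : ℕ} (hj' : j' < T.n) (f : ℕ → List Atom) (x y : ℚ) (hne : j' ≠ j)
    (hf : ∀ e, e < T.n → ∀ A ∈ f e, ∃ k, A.h 2 = some (D2 T.n j' e k)) :
    ((((List.range T.n).flatMap f)).map fun A => A.eval (vec x y (eQ T.n (j :: l)))).sum = 0 := by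
  apply List.sum_eq_zero
  intro a ha
  simp only [List.mem_map, List.mem_flatMap, List.mem_range] at ha
  obtain ⟨A, ⟨e, he, hA⟩, rfl⟩ := ha
  obtain ⟨k, hk⟩ := hf e he A hA
  unfold Atom.eval
  rw [Fin.prod_univ_three, hk]
  have h1 := fn_z2 h T hl hj hj' he k
  simp only [hne, false_and, if_false] at h1
  have h2 : vec x y (eQ T.n (j :: l)) 2 = (eQ T.n (j :: l) : ℝ) := rfl
  rw [h2]
  simp [optFn, h1]

theorem sum_D2_pos (f : ℕ → List Atom) (x y : ℚ)
    (hf : ∀ e, e < T.n → ∀ A ∈ f e, ∃ k, A.h 2 = some (D2 T.n j e k)) :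
    ((((List.range T.n).flatMap f)).map fun A => A.eval (vec x y (eQ T.n (j :: l)))).sum
      = ((f l.headI).map fun A => A.eval (vec x y (eQ T.n (j :: l)))).sum := by
  have hx := hl.head T.n_pos
  rw [sum_flatMap_range, Finset.sum_eq_single l.headI]
  · intro e he hne
    apply List.sum_eq_zero
    intro a ha
    simp only [List.mem_map] at ha
    obtain ⟨A, hA, rfl⟩ := ha
    obtain ⟨k, hk⟩ := hf e (Finset.mem_range.1 he) A hA
    unfold Atom.eval
    rw [Fin.prod_univ_three, hk]
    have h1 := fn_z2 h T hl hj hj (Finset.mem_range.1 he) k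
    simp only [hne, and_false, if_false] at h1
    have h2 : vec x y (eQ T.n (j :: l)) 2 = (eQ T.n (j :: l) : ℝ) := rfl
    rw [h2]
    simp [optFn, h1]
  · intro hc; exact absurd (Finset.mem_range.2 hx) hc

/-- value of the third shear -/
theorem g3_eq (x y : ℚ) : (shOf T 1 (t3 T)).g (vec x y (eQ T.n (j :: l)))
    = match T.kind j with
      | .push => ((-eQ T.n l.tail : ℚ) : ℝ)
      | .write _ _ => ((-eQ T.n l : ℚ) : ℝ)
      | .turn => 0 := by
  have hB : (B T.n : ℝ) ≠ 0 := by exact_mod_cast (B_pos T.n_pos).ne'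
  rw [shOf_g T hj]
  · unfold t3
    have h1 := fn_z1 h T hl hj hj
    have h2 := fn_z2 h T hl hj hj (hl.head T.n_pos)
    simp only [if_true, and_self] at h1 h2
    cases hk : T.kind j with
    | push =>
      simp only
      rw [sum_D2_pos h T hl hj]
      · simp only [List.map_cons, List.map_nil, List.sum_cons, List.sum_nil, eval_vec, optFn, h2,
          pow_zero, pow_one, one_mul, mul_one, add_zero]
        rw [cast_cons, eQ_tail T.n_pos]
        push_cast; field_simp; ring
      · intro e he A hA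
        simp only [List.mem_cons, List.not_mem_nil, or_false] at hA
        rcases hA with rfl | rfl
        · exact ⟨1, rfl⟩
        · exact ⟨0, rfl⟩
    | turn => simp
    | write e b =>
      simp only [List.map_cons, List.map_nil, List.sum_cons, List.sum_nil, eval_vec, optFn, h1,
        pow_zero, pow_one, one_mul, mul_one, add_zero]
      rw [cast_cons]
      push_cast; field_simp; ring
  · intro j' hj' hne
    have h1 := fn_z1 h T hl hj hj'
    simp only [hne, if_false] at h1
    unfold t3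
    cases hk : T.kind j' with
    | push =>
      simp only
      refine sum_D2 h T hl hj hj' _ x y hne fun e he A hA => ?_
      simp only [List.mem_cons, List.not_mem_nil, or_false] at hA
      rcases hA with rfl | rfl
      · exact ⟨1, rfl⟩
      · exact ⟨0, rfl⟩
    | turn => simp
    | write e b => simp [eval_vec, optFn, h1]

/-- value of the fourth shear -/
theorem g4_eq (x y : ℚ) (hx0 : 0 ≤ x) (hx1 : x ≤ 1 / 4) :
    (shOf T 1 (t4 T)).g (vec x y (eQ T.n (j :: l)))
    = match T.kind j with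
      | .push => ((B T.n * x - l.headI / 2 : ℚ) : ℝ)
      | .write e b => ((x + (b - e) / 2 / B T.n : ℚ) : ℝ)
      | .turn => 0 := by
  have hlin := fn_lin h hx0 hx1
  rw [shOf_g T hj]
  · unfold t4
    have h1 := fn_z1 h T hl hj hj
    have h2 := fn_z2 h T hl hj hj (hl.head T.n_pos)
    simp only [if_true, and_self] at h1 h2
    cases hk : T.kind j with
    | push =>
      simp only
      rw [sum_D2_pos h T hl hj]
      · simp only [List.map_cons, List.map_nil, List.sum_cons, List.sum_nil, eval_vec, optFn, h2,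
          pow_zero, one_mul, mul_one, add_zero, hlin]
        push_cast; ring
      · intro e he A hA
        simp only [List.mem_cons, List.not_mem_nil, or_false] at hA
        rcases hA with rfl | rfl
        · exact ⟨0, rfl⟩
        · exact ⟨0, rfl⟩
    | turn => simp
    | write e b =>
      simp only [List.map_cons, List.map_nil, List.sum_cons, List.sum_nil, eval_vec, optFn, h1,
        pow_zero, one_mul, mul_one, add_zero, hlin]
      push_cast; ring
  · intro j' hj' hne
    have h1 := fn_z1 h T hl hj hj'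
    simp only [hne, if_false] at h1
    unfold t4
    cases hk : T.kind j' with
    | push =>
      simp only
      refine sum_D2 h T hl hj hj' _ x y hne fun e he A hA => ?_
      simp only [List.mem_cons, List.not_mem_nil, or_false] at hA
      rcases hA with rfl | rfl
      · exact ⟨0, rfl⟩
      · exact ⟨0, rfl⟩
    | turn => simp
    | write e b => simp [eval_vec, optFn, h1]

/-- value of the fifth shear -/
theorem g5_eq (x y : ℚ) (hy0 : 0 ≤ y) (hy1 : y ≤ 1 / 4) :
    (shOf T 0 (t5 T)).g (vec x y (eQ T.n (j :: l)))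
    = match T.kind j with
      | .push => ((-((y + l.headI / 2) / B T.n) : ℚ) : ℝ)
      | .write e b => ((-(y - (b - e) / 2 / B T.n) : ℚ) : ℝ)
      | .turn => 0 := by
  have hlin := fn_lin h hy0 hy1
  rw [shOf_g T hj]
  · unfold t5
    have h1 := fn_z1 h T hl hj hj
    have h2 := fn_z2 h T hl hj hj (hl.head T.n_pos)
    simp only [if_true, and_self] at h1 h2
    cases hk : T.kind j with
    | push =>
      simp only
      rw [sum_D2_pos h T hl hj]
      · simp only [List.map_cons, List.map_nil, List.sum_cons, List.sum_nil, eval_vec, optFn, h2,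
          pow_zero, one_mul, mul_one, add_zero, hlin]
        push_cast; ring
      · intro e he A hA
        simp only [List.mem_cons, List.not_mem_nil, or_false] at hA
        rcases hA with rfl | rfl
        · exact ⟨0, rfl⟩
        · exact ⟨0, rfl⟩
    | turn => simp
    | write e b =>
      simp only [List.map_cons, List.map_nil, List.sum_cons, List.sum_nil, eval_vec, optFn, h1,
        pow_zero, one_mul, mul_one, add_zero, hlin]
      push_cast; ring
  · intro j' hj' hne
    have h1 := fn_z1 h T hl hj hj'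
    simp only [hne, if_false] at h1
    unfold t5
    cases hk : T.kind j' with
    | push =>
      simp only
      refine sum_D2 h T hl hj hj' _ x y hne fun e he A hA => ?_
      simp only [List.mem_cons, List.not_mem_nil, or_false] at hA
      rcases hA with rfl | rfl
      · exact ⟨0, rfl⟩
      · exact ⟨0, rfl⟩
    | turn => simp
    | write e b => simp [eval_vec, optFn, h1]

end

/-! ### one step -/

/-- the point of a configuration -/
theorem pos_eq (n : ℕ) (X Y : List ℕ) : pos n (X, Y) = vec (eQ n X) (eQ n Y) 0 := by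
  unfold pos vec
  rw [eQ_eq_enc, eQ_eq_enc]
  simp

theorem shears_ne (T : TSM) : shears T ≠ [] := by simp [shears]

/-- the coordinates are in `[0, 1/4]` -/
def InBox (v : Fin 3 → ℝ) : Prop := ∀ i, v i ∈ Icc (0 : ℝ) (1 / 4)

theorem inBox_vec {a b c : ℚ} (ha : 0 ≤ a ∧ a ≤ 1 / 4) (hb : 0 ≤ b ∧ b ≤ 1 / 4)
    (hc : 0 ≤ c ∧ c ≤ 1 / 4) : InBox (vec a b c) := by
  have key : ∀ q : ℚ, 0 ≤ q ∧ q ≤ 1 / 4 → (q : ℝ) ∈ Icc (0 : ℝ) (1 / 4) := by
    intro q hq
    constructor
    · exact_mod_cast hq.1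
    · have : ((q : ℚ) : ℝ) ≤ ((1 / 4 : ℚ) : ℝ) := by exact_mod_cast hq.2
      simpa using this
  intro i
  fin_cases i
  · exact key a ha
  · exact key b hb
  · exact key c hc

section
variable (T : TSM)

theorem orbit_succ (v : Fin 3 → ℝ) (k : ℕ) {s : Shear}
    (hs : (shears T)[k % 9]? = some s) :
    orbit (shears T) (shears_ne T) v (k + 1) = s.map (orbit (shears T) (shears_ne T) v k) := by
  have hlen : (shears T).length = 9 := rfl
  rw [orbit]
  congr 1
  rw [List.getElem?_eq_some_iff] at hs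
  obtain ⟨h1, h2⟩ := hs
  rw [← h2]
  simp only [hlen]

/-- a linear shear, moving `x` by `c y` -/
theorem map6 (h : Part2a) (a b c : ℚ) (hb : 0 ≤ b ∧ b ≤ 1 / 4) :
    Shear.map ⟨0, [⟨1, ![none, some lin, none]⟩]⟩ (vec a b c) = vec (a + b) b c := by
  refine upd0 a b c _ (a + b) ?_
  unfold Shear.g
  simp only [List.map_cons, List.map_nil, List.sum_cons, List.sum_nil, eval_vec, optFn,
    fn_lin h hb.1 hb.2]
  push_cast; ring

theorem map7 (h : Part2a) (a b c : ℚ) (ha : 0 ≤ a ∧ a ≤ 1 / 4) :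
    Shear.map ⟨1, [⟨-1, ![some lin, none, none]⟩]⟩ (vec a b c) = vec a (b - a) c := by
  refine upd1 a b c _ (b - a) ?_
  unfold Shear.g
  simp only [List.map_cons, List.map_nil, List.sum_cons, List.sum_nil, eval_vec, optFn,
    fn_lin h ha.1 ha.2]
  push_cast; ring

theorem map8 (h : Part2a) (a b c : ℚ) (hc : 0 ≤ c ∧ c ≤ 1 / 4) :
    Shear.map ⟨1, [⟨1, ![none, none, some lin]⟩]⟩ (vec a b c) = vec a (b + c) c := by
  refine upd1 a b c _ (b + c) ?_
  unfold Shear.g
  simp only [List.map_cons, List.map_nil, List.sum_cons, List.sum_nil, eval_vec, optFn,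
    fn_lin h hc.1 hc.2]
  push_cast; ring

theorem map9 (h : Part2a) (a b c : ℚ) (hb : 0 ≤ b ∧ b ≤ 1 / 4) :
    Shear.map ⟨2, [⟨-1, ![none, some lin, none]⟩]⟩ (vec a b c) = vec a b (c - b) := by
  refine upd2 a b c _ (c - b) ?_
  unfold Shear.g
  simp only [List.map_cons, List.map_nil, List.sum_cons, List.sum_nil, eval_vec, optFn,
    fn_lin h hb.1 hb.2]
  push_cast; ring

theorem eQ_mem {n : ℕ} (hn : 0 < n) {l : List ℕ} (hl : Sm n l) : 0 ≤ eQ n l ∧ eQ n l ≤ 1 / 4 :=
  ⟨eQ_nonneg hn l, eQ_le hn hl⟩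

/-- symbols stay `< n` -/
theorem step_sm {X Y X' Y' : List ℕ} (hX : Sm T.n X) (hY : Sm T.n Y)
    (hs : T.step (X, Y) = some (X', Y')) : Sm T.n X' ∧ Sm T.n Y' := by
  unfold TSM.step at hs
  cases hδ : T.δ X.headI Y.headI with
  | none => simp [hδ] at hs
  | some j =>
    have hj := T.δ_lt _ _ _ hδ
    simp only [hδ] at hs
    cases hk : T.kind j with
    | push =>
      simp only [hk, Option.some.injEq, Prod.mk.injEq] at hs
      obtain ⟨rfl, rfl⟩ := hs
      exact ⟨hX.tail, (hY.cons (hX.head T.n_pos)).cons hj⟩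
    | turn =>
      simp only [hk, Option.some.injEq, Prod.mk.injEq] at hs
      obtain ⟨rfl, rfl⟩ := hs
      exact ⟨hY, hX.cons hj⟩
    | write e b =>
      simp only [hk, Option.some.injEq, Prod.mk.injEq] at hs
      obtain ⟨rfl, rfl⟩ := hs
      exact ⟨hX.tail.cons (T.write_lt _ _ _ hk), hY.cons hj⟩

/-- the nine shears realise one step -/
theorem step_orbit (h : Part2a) {X Y X' Y' : List ℕ} (hX : Sm T.n X) (hY : Sm T.n Y)
    (hs : T.step (X, Y) = some (X', Y')) :
    (∀ k, k ≤ 9 → InBox (orbit (shears T) (shears_ne T) (pos T.n (X, Y)) k)) ∧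
      orbit (shears T) (shears_ne T) (pos T.n (X, Y)) 9 = pos T.n (X', Y') := by
  obtain ⟨hX', hY'⟩ := step_sm T hX hY hs
  have mx := eQ_mem T.n_pos hX
  have my := eQ_mem T.n_pos hY
  have mx' := eQ_mem T.n_pos hX'
  have mz := eQ_mem T.n_pos hY'
  have m0 : (0 : ℚ) ≤ 0 ∧ (0 : ℚ) ≤ 1 / 4 := ⟨le_rfl, by norm_num⟩
  have hB := (B_pos T.n_pos).ne'
  set v := pos T.n (X, Y) with hv
  have o0 : orbit (shears T) (shears_ne T) v 0 = vec (eQ T.n X) (eQ T.n Y) 0 := by
    rw [orbit, hv, pos_eq]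
  cases hδ : T.δ X.headI Y.headI with
  | none =>
    exfalso
    unfold TSM.step at hs
    simp [hδ] at hs
  | some j =>
    have hj := T.δ_lt _ _ _ hδ
    have o1 : orbit (shears T) (shears_ne T) v 1 = vec (eQ T.n X) (eQ T.n Y) (eQ T.n Y') := by
      rw [orbit_succ T v 0 (s := sh1 T) rfl, o0]
      refine upd2 _ _ _ _ _ ?_
      rw [g1_some h T hX hY 0 hδ hs]; simp
    -- the middle part
    have mid : ∃ (a2 b2 a3 b3 a4 b4 : ℚ),
        (0 ≤ a2 ∧ a2 ≤ 1 / 4) ∧ (0 ≤ b2 ∧ b2 ≤ 1 / 4) ∧ (0 ≤ a3 ∧ a3 ≤ 1 / 4) ∧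
        (0 ≤ b3 ∧ b3 ≤ 1 / 4) ∧ (0 ≤ a4 ∧ a4 ≤ 1 / 4) ∧ (0 ≤ b4 ∧ b4 ≤ 1 / 4) ∧
        orbit (shears T) (shears_ne T) v 2 = vec a2 b2 (eQ T.n Y') ∧
        orbit (shears T) (shears_ne T) v 3 = vec a3 b3 (eQ T.n Y') ∧
        orbit (shears T) (shears_ne T) v 4 = vec a4 b4 (eQ T.n Y') ∧
        orbit (shears T) (shears_ne T) v 5 = vec 0 (eQ T.n X') (eQ T.n Y') := by
      have hs' := hs
      unfold TSM.step at hs'
      simp only [hδ] at hs'
      cases hk : T.kind j with
      | push =>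
        simp only [hk, Option.some.injEq, Prod.mk.injEq] at hs'
        obtain ⟨e1, e2⟩ := hs'
        have hl : Sm T.n (X.headI :: Y) := hY.cons (hX.head T.n_pos)
        have o2 : orbit (shears T) (shears_ne T) v 2 = vec (eQ T.n X) (eQ T.n Y) (eQ T.n Y') := by
          rw [orbit_succ T v 1 (s := shOf T 0 (t2 T)) rfl, o1]
          refine upd0 _ _ _ _ _ ?_
          rw [← e2, g2_eq h T hl hj, hk]; simp
        have o3 : orbit (shears T) (shears_ne T) v 3 = vec (eQ T.n X) 0 (eQ T.n Y') := by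
          rw [orbit_succ T v 2 (s := shOf T 1 (t3 T)) rfl, o2]
          refine upd1 _ _ _ _ _ ?_
          rw [← e2, g3_eq h T hl hj, hk]; simp
        have o4 : orbit (shears T) (shears_ne T) v 4 = vec (eQ T.n X) (eQ T.n X') (eQ T.n Y') := by
          rw [orbit_succ T v 3 (s := shOf T 1 (t4 T)) rfl, o3]
          refine upd1 _ _ _ _ _ ?_
          rw [← e2, g4_eq h T hl hj _ _ mx.1 mx.2, hk, ← e1, eQ_tail T.n_pos]; simp
        have o5 : orbit (shears T) (shears_ne T) v 5 = vec 0 (eQ T.n X') (eQ T.n Y') := by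
          rw [orbit_succ T v 4 (s := shOf T 0 (t5 T)) rfl, o4]
          refine upd0 _ _ _ _ _ ?_
          rw [← e2, g5_eq h T hl hj _ _ mx'.1 mx'.2, hk, ← e1, eQ_tail T.n_pos]
          have hB' : (B T.n : ℝ) ≠ 0 := by exact_mod_cast hB
          simp only [List.headI]
          push_cast; field_simp; ring
        exact ⟨_, _, _, _, _, _, mx, my, mx, m0, mx, mx', o2, o3, o4, o5⟩
      | turn =>
        simp only [hk, Option.some.injEq, Prod.mk.injEq] at hs'
        obtain ⟨e1, e2⟩ := hs'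
        have o2 : orbit (shears T) (shears_ne T) v 2 = vec 0 (eQ T.n Y) (eQ T.n Y') := by
          rw [orbit_succ T v 1 (s := shOf T 0 (t2 T)) rfl, o1]
          refine upd0 _ _ _ _ _ ?_
          rw [← e2, g2_eq h T hX hj, hk]; simp
        have o3 : orbit (shears T) (shears_ne T) v 3 = vec 0 (eQ T.n Y) (eQ T.n Y') := by
          rw [orbit_succ T v 2 (s := shOf T 1 (t3 T)) rfl, o2]
          refine upd1 _ _ _ _ _ ?_
          rw [← e2, g3_eq h T hX hj, hk]; simp
        have o4 : orbit (shears T) (shears_ne T) v 4 = vec 0 (eQ T.n Y) (eQ T.n Y') := by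
          rw [orbit_succ T v 3 (s := shOf T 1 (t4 T)) rfl, o3]
          refine upd1 _ _ _ _ _ ?_
          rw [← e2, g4_eq h T hX hj _ _ m0.1 m0.2, hk]; simp
        have o5 : orbit (shears T) (shears_ne T) v 5 = vec 0 (eQ T.n X') (eQ T.n Y') := by
          rw [orbit_succ T v 4 (s := shOf T 0 (t5 T)) rfl, o4, ← e1]
          refine upd0 _ _ _ _ _ ?_
          rw [← e2, g5_eq h T hX hj _ _ my.1 my.2, hk]; simp
        exact ⟨_, _, _, _, _, _, m0, my, m0, my, m0, my, o2, o3, o4, o5⟩
      | write e b =>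
        simp only [hk, Option.some.injEq, Prod.mk.injEq] at hs'
        obtain ⟨e1, e2⟩ := hs'
        have he : e = X.headI := T.write_eq _ _ _ _ _ hδ hk
        have hx' : eQ T.n X' = eQ T.n X + (b - e) / 2 / B T.n := by
          rw [← e1, eQ_eq X, he]
          show ((b : ℚ) / 2 + eQ T.n X.tail) / B T.n = _
          ring
        have o2 : orbit (shears T) (shears_ne T) v 2 = vec (eQ T.n X) (eQ T.n Y) (eQ T.n Y') := by
          rw [orbit_succ T v 1 (s := shOf T 0 (t2 T)) rfl, o1]
          refine upd0 _ _ _ _ _ ?_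
          rw [← e2, g2_eq h T hY hj, hk]; simp
        have o3 : orbit (shears T) (shears_ne T) v 3 = vec (eQ T.n X) 0 (eQ T.n Y') := by
          rw [orbit_succ T v 2 (s := shOf T 1 (t3 T)) rfl, o2]
          refine upd1 _ _ _ _ _ ?_
          rw [← e2, g3_eq h T hY hj, hk]; simp
        have o4 : orbit (shears T) (shears_ne T) v 4 = vec (eQ T.n X) (eQ T.n X') (eQ T.n Y') := by
          rw [orbit_succ T v 3 (s := shOf T 1 (t4 T)) rfl, o3]
          refine upd1 _ _ _ _ _ ?_
          rw [← e2, g4_eq h T hY hj _ _ mx.1 mx.2, hk, hx']; simp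
        have o5 : orbit (shears T) (shears_ne T) v 5 = vec 0 (eQ T.n X') (eQ T.n Y') := by
          rw [orbit_succ T v 4 (s := shOf T 0 (t5 T)) rfl, o4]
          refine upd0 _ _ _ _ _ ?_
          rw [← e2, g5_eq h T hY hj _ _ mx'.1 mx'.2, hk, hx']
          push_cast; ring
        exact ⟨_, _, _, _, _, _, mx, my, mx, m0, mx, mx', o2, o3, o4, o5⟩
    obtain ⟨a2, b2, a3, b3, a4, b4, ha2, hb2, ha3, hb3, ha4, hb4, o2, o3, o4, o5⟩ := mid
    have o6 : orbit (shears T) (shears_ne T) v 6 = vec (eQ T.n X') (eQ T.n X') (eQ T.n Y') := by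
      rw [orbit_succ T v 5 (s := ⟨0, [⟨1, ![none, some lin, none]⟩]⟩) rfl, o5,
        map6 h _ _ _ mx', zero_add]
    have o7 : orbit (shears T) (shears_ne T) v 7 = vec (eQ T.n X') 0 (eQ T.n Y') := by
      rw [orbit_succ T v 6 (s := ⟨1, [⟨-1, ![some lin, none, none]⟩]⟩) rfl, o6,
        map7 h _ _ _ mx', sub_self]
    have o8 : orbit (shears T) (shears_ne T) v 8 = vec (eQ T.n X') (eQ T.n Y') (eQ T.n Y') := by
      rw [orbit_succ T v 7 (s := ⟨1, [⟨1, ![none, none, some lin]⟩]⟩) rfl, o7,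
        map8 h _ _ _ mz, zero_add]
    have o9 : orbit (shears T) (shears_ne T) v 9 = vec (eQ T.n X') (eQ T.n Y') 0 := by
      rw [orbit_succ T v 8 (s := ⟨2, [⟨-1, ![none, some lin, none]⟩]⟩) rfl, o8,
        map9 h _ _ _ mz, sub_self]
    refine ⟨?_, by rw [o9, pos_eq]⟩
    intro k hk
    interval_cases k
    · rw [o0]; exact inBox_vec mx my m0
    · rw [o1]; exact inBox_vec mx my mz
    · rw [o2]; exact inBox_vec ha2 hb2 mz
    · rw [o3]; exact inBox_vec ha3 hb3 mz
    · rw [o4]; exact inBox_vec ha4 hb4 mz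
    · rw [o5]; exact inBox_vec m0 mx' mz
    · rw [o6]; exact inBox_vec mx' mx' mz
    · rw [o7]; exact inBox_vec mx' m0 mz
    · rw [o8]; exact inBox_vec mx' mz mz
    · rw [o9]; exact inBox_vec mx' mz m0

/-- the orbit after nine shears starts again -/
theorem orbit_add (v : Fin 3 → ℝ) (k : ℕ) :
    orbit (shears T) (shears_ne T) v (9 + k)
      = orbit (shears T) (shears_ne T) (orbit (shears T) (shears_ne T) v 9) k := by
  induction k with
  | zero => rfl
  | succ k ih =>
    have hk : k % 9 < 9 := Nat.mod_lt _ (by norm_num)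
    have hk' : (9 + k) % 9 = k % 9 := by omega
    have hs : (shears T)[k % 9]? = some ((shears T)[k % 9]'hk) := List.getElem?_eq_getElem hk
    rw [orbit_succ T _ k hs, ← ih]
    exact orbit_succ T v (9 + k) (by rw [hk']; exact hs)

theorem halt_orbit (h : Part2a) {X Y : List ℕ} (hX : Sm T.n X) (hY : Sm T.n Y)
    (hs : T.step (X, Y) = none) :
    orbit (shears T) (shears_ne T) (pos T.n (X, Y)) 1 = vec (eQ T.n X) (eQ T.n Y) (1 / 2) := by
  have hδ : T.δ X.headI Y.headI = none := by
    cases hδ : T.δ X.headI Y.headI with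
    | none => rfl
    | some j =>
      exfalso
      unfold TSM.step at hs
      simp only [hδ] at hs
      cases hk : T.kind j <;> simp [hk] at hs
  rw [orbit_succ T _ 0 (s := sh1 T) rfl, orbit, pos_eq]
  refine upd2 _ _ _ _ _ ?_
  rw [g1_none h T hX hY 0 hδ]; push_cast; ring

end

/-- Part (6) of the construction. -/
theorem part6 (h : Part2a) : Part6 := by
  intro T
  refine ⟨shears T, shears_ne T, shears_ok T, fun X Y hX hY => ⟨fun hd => ?_, fun hd => ?_⟩⟩
  · -- halting
    obtain ⟨b, hb⟩ := Part.dom_iff_mem.1 hd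
    rw [StateTransition.mem_eval] at hb
    obtain ⟨hr, hb⟩ := hb
    clear hd
    have key : ∀ c : List ℕ × List ℕ, StateTransition.Reaches T.step c b →
        Sm T.n c.1 → Sm T.n c.2 → ∃ k,
        (orbit (shears T) (shears_ne T) (pos T.n c) k) 2 = 1 / 2 ∧
          ∀ i, i ≠ 2 → (orbit (shears T) (shears_ne T) (pos T.n c) k) i ∈ Icc (0 : ℝ) (1 / 4) := by
      intro c hc
      refine Relation.ReflTransGen.head_induction_on hc ?_ ?_
      · intro h1 h2
        obtain ⟨X, Y⟩ := b
        refine ⟨1, ?_, ?_⟩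
        · rw [halt_orbit T h h1 h2 hb]; simp [vec]
        · intro i hi
          rw [halt_orbit T h h1 h2 hb]
          have := inBox_vec (eQ_mem T.n_pos h1) (eQ_mem T.n_pos h2)
            (c := 0) ⟨le_rfl, by norm_num⟩
          have h3 := this i
          fin_cases i
          · exact h3
          · exact h3
          · exact absurd rfl hi
      · intro a c ha hc ih h1 h2
        obtain ⟨X, Y⟩ := a
        obtain ⟨X', Y'⟩ := c
        have hs : T.step (X, Y) = some (X', Y') := ha
        obtain ⟨h3, h4⟩ := step_sm T h1 h2 hs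
        obtain ⟨k, hk1, hk2⟩ := ih h3 h4
        obtain ⟨-, h5⟩ := step_orbit T h h1 h2 hs
        exact ⟨9 + k, by rw [orbit_add, h5]; exact hk1, by rw [orbit_add, h5]; exact hk2⟩
    exact key (X, Y) hr hX hY
  · -- not halting
    have key : ∀ N : ℕ, ∀ c : List ℕ × List ℕ, ¬ (StateTransition.eval T.step c).Dom →
        Sm T.n c.1 → Sm T.n c.2 → ∀ k, k ≤ N →
          InBox (orbit (shears T) (shears_ne T) (pos T.n c) k) := by
      intro N
      induction N with
      | zero =>
        intro c hc h1 h2 k hk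
        obtain ⟨X, Y⟩ := c
        obtain rfl : k = 0 := by omega
        rw [orbit, pos_eq]
        exact inBox_vec (eQ_mem T.n_pos h1) (eQ_mem T.n_pos h2) ⟨le_rfl, by norm_num⟩
      | succ N ih =>
        intro c hc h1 h2 k hk
        obtain ⟨X, Y⟩ := c
        cases hs : T.step (X, Y) with
        | none =>
          exfalso
          apply hc
          rw [Part.dom_iff_mem]
          exact ⟨(X, Y), StateTransition.mem_eval.2 ⟨Relation.ReflTransGen.refl, hs⟩⟩
        | some c' =>
          obtain ⟨X', Y'⟩ := c'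
          obtain ⟨h3, h4⟩ := step_sm T h1 h2 hs
          obtain ⟨h5, h6⟩ := step_orbit T h h1 h2 hs
          by_cases hk9 : k ≤ 9
          · exact h5 k hk9
          · obtain ⟨m, rfl⟩ : ∃ m, k = 9 + m := ⟨k - 9, by omega⟩
            rw [orbit_add, h6]
            refine ih (X', Y') ?_ h3 h4 m (by omega)
            rwa [← StateTransition.reaches_eval (Relation.ReflTransGen.single hs)]
    intro k i
    exact key k (X, Y) hd hX hY k le_rfl i

end Vale.Agent.P113.H44
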