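import Mathlib.Data.List.Basic
import Mathlib.Data.Fintype.Card

/-!
# P113: abstract two-stack machines with records

A configuration is a pair `(X, Y)` of stacks over one alphabet `E` with blank `default`.
The state is read off the top of `Y` (`nxt`), the case is `(s, e)` with `e` the top of `X`, and each
step pushes the record `rcd s e` on `Y`, so that the case can be read off the top of the new `Y`.
-/

namespace Vale.Agent.P113.TS

/-- what the machine does in a case (state `s`, top symbol `e` of `X`) -/
inductive Act (E : Type)
  /-- `X' = tail X`, `Y' = rcd s e :: e :: Y` -/
  | pop : Act E
  /-- `X' = Y`, `Y' = rcd s e :: X` -/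
  | turn : Act E
  /-- `X' = b :: tail X`, `Y' = rcd s e :: Y` -/
  | write (b : E) : Act E
  /-- no step -/
  | halt : Act E

/-- a two-stack machine with records -/
structure Mach (E S : Type) where
  /-- the state read off the top of `Y` -/
  nxt : E → S
  /-- the record of a case -/
  rcd : S → E → E
  /-- the action of a case -/
  act : S → E → Act E
  /-- the record determines the case, except that several `pop` cases of one state may share a
  record (they are told apart by the second symbol) -/
  inj : ∀ s e s' e', rcd s e = rcd s' e' → s = s' ∧ (e = e' ∨ act s e = .pop ∧ act s' e' = .pop)

variable {E S : Type} [Inhabited E]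

/-- the result of an action -/
def Act.run (M : Mach E S) (s : S) (e : E) (X Y : List E) : Act E → Option (List E × List E)
  | .pop => some (X.tail, M.rcd s e :: e :: Y)
  | .turn => some (Y, M.rcd s e :: X)
  | .write b => some (b :: X.tail, M.rcd s e :: Y)
  | .halt => none

/-- one step of the machine; `none` if it halts. An empty stack has top symbol `default`. -/
def Mach.step (M : Mach E S) (c : List E × List E) : Option (List E × List E) :=
  (M.act (M.nxt c.2.headI) c.1.headI).run M (M.nxt c.2.headI) c.1.headI c.1 c.2

end Vale.Agent.P113.TS
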